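import Vale.Agent.P269.G1I.H410.Lamc
import Vale.Agent.P269.G1I.H276.Pow
import Vale.Agent.P269.G1I.Oper

/-!
# [A4]: `λ(E)` is zero at the origin
-/

set_option autoImplicit false

namespace Vale.Agent.P269.LN.H660

open Vale.Agent.P269.CI
open Vale.Agent.P269.G1

variable {X : CompleteIntersection} {F : ℕ → ℕ → List (Ins X) → ℂ}

theorem lamc_origin (hF : IsGW X F) (h1 : IsGenusOne F) (hi : 2 ≤ index X) (v : X.Prim) :
    H276.ev0 X (lamc h1 (H276.i1 X)) = 0 := by
  unfold lamc
  rw [H276.ev0_ser]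
  ext d
  rw [PowerSeries.coeff_mk, map_zero]
  obtain ⟨w, hvw⟩ := H410.exists_form_ne v
  have h := Classical.choose_spec h1.mono2 d v w 0 0 [hpow X (H276.i1 X)]
    (by intro x hx; rw [List.mem_singleton] at hx; exact ⟨_, by rw [hx]; rfl⟩)
  have h0 : F 0 d [(Sum.inr v, 0), (Sum.inr w, 0), hpow X (H276.i1 X)] = 0 := by
    by_contra hc
    have hg := hF.grading_p 0 d _ hc
    have hf := X.form_hodge v w hvw
    simp only [List.map_cons, List.map_nil, List.sum_cons, List.sum_nil, hp, hpow,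
      H276.i1] at hg
    push_cast at hg
    have hf' : (X.hodgeP v : ℤ) + X.hodgeP w = X.dim := by exact_mod_cast hf
    have h3 : index X * d = 1 := by linarith
    have hd : (d : ℤ) ≠ 0 := by
      rintro h4
      rw [h4] at h3
      simp at h3
    have hd' : (1 : ℤ) ≤ d := by omega
    nlinarith
  rw [h0] at h
  rcases mul_eq_zero.mp h.symm with h4 | h4
  · exact absurd h4 hvw
  · exact h4

variable (hF : IsGW X F) (h1 : IsGenusOne F)

/-- **[A4]** -/
theorem lam_zero (hi : 2 ≤ index X) (v : X.Prim) : H276.ev0 X (lam hF h1 (Eu hF h1) v) = 0 := by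
  change H276.ev0 X (∑ i, Eu hF h1 i * lamc h1 i) = 0
  rw [map_sum]
  refine Finset.sum_eq_zero fun i _ => ?_
  rw [map_mul, H276.ev0_Eu]
  by_cases h : i = H276.i1 X
  · rw [h, lamc_origin hF h1 hi v, mul_zero]
  · rw [if_neg h, zero_mul]

end Vale.Agent.P269.LN.H660
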