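import Vale.Agent.P269.LN.H660.Trace

/-!
# [A2b]: traces of `μ M^a μ M^b` at the origin
-/

set_option autoImplicit false

namespace Vale.Agent.P269.LN.H660

open Vale.Agent.P269.CI
open Vale.Agent.P269.G1

variable {X : CompleteIntersection} {F : ℕ → ℕ → List (Ins X) → ℂ}

theorem inner_sum (x y : ℂ) (b : ℕ) : ∑ t ∈ Finset.range b, (y - t) * (x - t) =
    b * x * y - (x + y) * (b * (b - 1) / 2) + (b - 1) * b * (2 * b - 1) / 6 := by
  induction b with
  | zero => simp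
  | succ b ih =>
    rw [Finset.sum_range_succ, ih]
    push_cast
    ring

theorem outer_sum (x N : ℂ) (M : ℕ) :
    ∑ b ∈ Finset.range (M + 1), ∑ t ∈ Finset.range b, (x - N + b - t) * (x - t) =
      M * (M + 1) / 2 * (x ^ 2 - N * x + x - N / 2 + 1 / 6) +
        N / 2 * (M * (M + 1) * (2 * M + 1) / 6) - (1 / 6) * (M * (M + 1) / 2) ^ 2 := by
  induction M with
  | zero => simp
  | succ M ih =>
    rw [Finset.sum_range_succ, ih, inner_sum]
    push_cast
    ring

theorem mu_identity (x : ℂ) (ν : ℕ) :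
    2 * ∑ b ∈ Finset.range (ν + 1), ∑ t ∈ Finset.range b,
      (x - t - ((ν - b : ℕ) : ℂ)) * (x - t) =
      (ν : ℂ) * (ν + 1) * (x - ((ν : ℂ) - 1) / 2) ^ 2 + (ν : ℂ) * ((ν : ℂ) ^ 2 - 1) / 12 := by
  rw [Finset.sum_congr rfl (g := fun b => ∑ t ∈ Finset.range b,
    (x - (ν : ℂ) + b - t) * (x - t)), outer_sum]
  · ring
  · intro b hb
    have hb' := Finset.mem_range.mp hb
    refine Finset.sum_congr rfl fun t _ => ?_
    rw [Nat.cast_sub (by omega)]
    ring

/-- half of a trace -/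
noncomputable def PP (X : CompleteIntersection) (l : ℕ → ℂ) (a b : ℕ) : ℂ :=
  ∑ i : Fin (X.dim + 1), ∑ j : Fin (X.dim + 1), if (j : ℕ) = i + a then
    (((i : ℕ) : ℂ) - (X.dim : ℂ) / 2) * (((j : ℕ) : ℂ) - (X.dim : ℂ) / 2) *
      ∑ t ∈ Finset.range b, l (j + t) else 0

theorem PP_eq (ν : ℕ) (l : ℕ → ℂ) (hb : ∀ n, X.dim < n → l n = 0)
    (hs : ∀ n, n + 1 < ν → l n = 0) (a b : ℕ) (hab : a + b = ν) :
    PP X l a b = ∑ n ∈ Finset.range (X.dim + 1), l n * ∑ t ∈ Finset.range b,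
      (((n : ℂ) - X.dim / 2) - t - (a : ℂ)) * (((n : ℂ) - X.dim / 2) - t) := by
  have key : ∀ i : Fin (X.dim + 1), (∑ j : Fin (X.dim + 1), if (j : ℕ) = i + a then
      (((i : ℕ) : ℂ) - (X.dim : ℂ) / 2) * (((j : ℕ) : ℂ) - (X.dim : ℂ) / 2) *
      ∑ t ∈ Finset.range b, l (j + t) else 0) =
      ∑ t ∈ Finset.range b, (fun n : ℕ => l n * ((((n : ℂ) - X.dim / 2) - t - (a : ℂ)) *
        (((n : ℂ) - X.dim / 2) - t))) ((i : ℕ) + (a + t)) := by
    intro i
    by_cases h : (i : ℕ) + a < X.dim + 1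
    · rw [Finset.sum_eq_single (⟨i + a, h⟩ : Fin (X.dim + 1))]
      · rw [if_pos rfl, Finset.mul_sum]
        refine Finset.sum_congr rfl fun t _ => ?_
        simp only []
        rw [show (i : ℕ) + a + t = i + (a + t) by ring]
        push_cast
        ring
      · intro j _ hj
        exact if_neg fun h' => hj (Fin.ext h')
      · simp
    · rw [Finset.sum_eq_zero, Finset.sum_eq_zero]
      · intro t _
        simp only []
        rw [hb _ (by omega), zero_mul]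
      · intro j _
        have hj := j.isLt
        exact if_neg (by omega)
  unfold PP
  rw [Finset.sum_congr rfl fun i _ => key i, Finset.sum_comm]
  rw [Finset.sum_congr rfl (g := fun t : ℕ => ∑ n ∈ Finset.range (X.dim + 1),
    (fun n : ℕ => l n * ((((n : ℂ) - X.dim / 2) - t - (a : ℂ)) *
        (((n : ℂ) - X.dim / 2) - t))) n)]
  · rw [Finset.sum_comm]
    refine Finset.sum_congr rfl fun n _ => ?_
    rw [Finset.mul_sum]
  · intro t ht
    have ht' := Finset.mem_range.mp ht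
    rw [Fin.sum_univ_eq_sum_range (fun i : ℕ => (fun n : ℕ => l n * ((((n : ℂ) - X.dim / 2) - t -
      (a : ℂ)) * (((n : ℂ) - X.dim / 2) - t))) (i + (a + t))) (X.dim + 1)]
    exact sum_shift X.dim ν (fun n : ℕ => l n * ((((n : ℂ) - X.dim / 2) - t -
      (a : ℂ)) * (((n : ℂ) - X.dim / 2) - t)))
      (fun n hn => by show l n * _ = 0; rw [hb n hn, zero_mul])
      (fun n hn => by show l n * _ = 0; rw [hs n hn, zero_mul]) (a + t) (by omega)

theorem coeff_trace (hF : IsGW X F) (ν : ℕ) (hν : index X = ν) (h2 : 2 ≤ ν) (l : ℕ → ℂ)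
    (hl : IsL F ν l) (b : ℕ) (hb : b ≤ ν) : PowerSeries.coeff 1
      (Matrix.trace (Dm X * (qmul F) ^ (ν - b) * Dm X * (qmul F) ^ b)) =
      PP X l (ν - b) b + PP X l b (ν - b) := by
  unfold Matrix.trace PP
  rw [map_sum, Finset.sum_comm (f := fun i j : Fin (X.dim + 1) => if (j : ℕ) = i + b then
    (((i : ℕ) : ℂ) - (X.dim : ℂ) / 2) * (((j : ℕ) : ℂ) - (X.dim : ℂ) / 2) *
      ∑ t ∈ Finset.range (ν - b), l (j + t) else 0), ← Finset.sum_add_distrib]
  refine Finset.sum_congr rfl fun i _ => ?_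
  rw [Matrix.diag_apply, Matrix.mul_apply, map_sum, ← Finset.sum_add_distrib]
  refine Finset.sum_congr rfl fun j _ => ?_
  have e : (Dm X * (qmul F) ^ (ν - b) * Dm X) i j =
      PowerSeries.C ((((i : ℕ) : ℂ) - (X.dim : ℂ) / 2) * (((j : ℕ) : ℂ) - (X.dim : ℂ) / 2)) *
        ((qmul F) ^ (ν - b)) i j := by
    unfold Dm
    rw [Matrix.mul_diagonal, Matrix.diagonal_mul, map_mul]
    ring
  rw [e, mul_assoc, PowerSeries.coeff_C_mul, coeff_one_mul', (coeff_pow hF ν hν h2 l hl _ _ _).1,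
    (coeff_pow hF ν hν h2 l hl _ _ _).1, (coeff_pow hF ν hν h2 l hl _ _ _).2,
    (coeff_pow hF ν hν h2 l hl _ _ _).2]
  have c1 : ((j : ℕ) = i + (ν - b) ∧ (i : ℕ) + ν = j + b) ↔ (j : ℕ) = i + (ν - b) := by omega
  have c2 : ((j : ℕ) + ν = i + (ν - b) ∧ (i : ℕ) = j + b) ↔ (i : ℕ) = j + b := by omega
  have d1 : (if (j : ℕ) = i + (ν - b) then (1 : ℂ) else 0) *
      (if (i : ℕ) + ν = j + b then ∑ t ∈ Finset.range b, l (j + t) else 0) =
      if (j : ℕ) = i + (ν - b) then ∑ t ∈ Finset.range b, l (j + t) else 0 := by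
    by_cases h : (j : ℕ) = i + (ν - b)
    · rw [if_pos h, if_pos (c1.mpr h).2, if_pos h, one_mul]
    · rw [if_neg h, zero_mul, if_neg h]
  have d2 : (if (j : ℕ) + ν = i + (ν - b) then ∑ t ∈ Finset.range (ν - b), l (i + t) else 0) *
      (if (i : ℕ) = j + b then (1 : ℂ) else 0) =
      if (i : ℕ) = j + b then ∑ t ∈ Finset.range (ν - b), l (i + t) else 0 := by
    by_cases h : (i : ℕ) = j + b
    · rw [if_pos h, if_pos (c2.mpr h).1, if_pos h, mul_one]
    · rw [if_neg h, mul_zero, if_neg h]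
  rw [d1, d2, mul_add, mul_ite, mul_ite, mul_zero]
  congr 1
  split_ifs
  · ring
  · rfl

/-- **[A2b]** -/
theorem trace_mu (hF : IsGW X F) (ν : ℕ) (hν : index X = ν) (h2 : 2 ≤ ν) (l : ℕ → ℂ)
    (hl : IsL F ν l) : ∑ b ∈ Finset.range (ν + 1), PowerSeries.coeff 1
      (Matrix.trace (Dm X * (qmul F) ^ (ν - b) * Dm X * (qmul F) ^ b)) =
      ∑ n ∈ Finset.range (X.dim + 1), l n *
        ((ν : ℂ) * (ν + 1) * ((n : ℂ) - (X.dim + ν - 1) / 2) ^ 2 +
          (ν : ℂ) * ((ν : ℂ) ^ 2 - 1) / 12) := by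
  have e1 : ∑ b ∈ Finset.range (ν + 1), PP X l b (ν - b) =
      ∑ b ∈ Finset.range (ν + 1), PP X l (ν - b) b := by
    rw [← Finset.sum_flip]
    refine Finset.sum_congr rfl fun b hb => ?_
    have hb' := Finset.mem_range.mp hb
    rw [Nat.sub_sub_self (by omega)]
  rw [Finset.sum_congr rfl fun b hb => coeff_trace hF ν hν h2 l hl b
    (by have := Finset.mem_range.mp hb; omega), Finset.sum_add_distrib, e1, ← two_mul,
    Finset.sum_congr rfl fun b hb => PP_eq (X := X) ν l hl.big hl.small (ν - b) b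
      (by have := Finset.mem_range.mp hb; omega), Finset.sum_comm, Finset.mul_sum]
  refine Finset.sum_congr rfl fun n _ => ?_
  rw [← Finset.mul_sum, mul_left_comm, mu_identity]
  ring

end Vale.Agent.P269.LN.H660
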