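import Vale.Agent.P269.LN.H660.Trace
import Vale.Agent.P269.LN.H660.LamZero
import Vale.Agent.P269.G1I.H819.C5a

/-!
# [A5]: the supertrace of `E^ν` at the origin
-/

set_option autoImplicit false

namespace Vale.Agent.P269.LN.H660

open Vale.Agent.P269.CI
open Vale.Agent.P269.G1

variable {X : CompleteIntersection} {F : ℕ → ℕ → List (Ins X) → ℂ}

variable (hF : IsGW X F) (h1 : IsGenusOne F)

/-- multiplication by the powers of the Euler field in coordinates -/
theorem pow_mul_coord (n : ℕ) (z : AA hF h1) (j : Fin (X.dim + 1)) :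
    (Eu hF h1 ^ n * z : AA hF h1) j = ∑ i, z i * ((H276.TT hF h1) ^ n) i j := by
  induction n generalizing j with
  | zero =>
    rw [pow_zero, pow_zero, one_mul, Finset.sum_eq_single j]
    · rw [Matrix.one_apply_eq, mul_one]
    · intro i _ hi
      rw [Matrix.one_apply_ne hi, mul_zero]
    · simp
  | succ n ih =>
    have e : (Eu hF h1 ^ (n + 1) * z : AA hF h1) = Eu hF h1 * (Eu hF h1 ^ n * z) := by
      rw [pow_succ', mul_assoc]
    rw [e, QA.mul_def, Finset.sum_comm]
    have e2 : ∀ k : Fin (X.dim + 1), (∑ a : Fin (X.dim + 1),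
        Eu hF h1 a * (Eu hF h1 ^ n * z : AA hF h1) k * (consts hF h1).c a k j) =
        (Eu hF h1 ^ n * z : AA hF h1) k * H276.TT hF h1 k j := by
      intro k
      rw [H276.TT_apply, Finset.mul_sum]
      refine Finset.sum_congr rfl fun a _ => ?_
      change Eu hF h1 a * (Eu hF h1 ^ n * z : AA hF h1) k * qc F a k j = _
      ring
    rw [Finset.sum_congr rfl fun k _ => e2 k]
    simp only [ih, Finset.sum_mul]
    rw [Finset.sum_comm]
    refine Finset.sum_congr rfl fun i _ => ?_
    rw [pow_succ, Matrix.mul_apply, Finset.mul_sum]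
    exact Finset.sum_congr rfl fun k _ => by ring

/-- the matrix (input, output) of multiplication by `E^n` -/
theorem pow_mul_bas (n : ℕ) (i j : Fin (X.dim + 1)) :
    (Eu hF h1 ^ n * (QA.bas (consts hF h1) i : AA hF h1) : AA hF h1) j =
      ((H276.TT hF h1) ^ n) i j := by
  rw [pow_mul_coord, Finset.sum_eq_single i]
  · rw [QA.bas_apply, if_pos rfl, one_mul]
  · intro k _ hk
    rw [QA.bas_apply, if_neg hk, zero_mul]
  · simp

/-- the powers of the matrix of the Euler field at the origin -/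
theorem ev0_TT_pow (n : ℕ) (i j : Fin (X.dim + 1)) :
    H276.ev0 X (((H276.TT hF h1) ^ n) i j) =
      PowerSeries.C ((index X : ℂ) ^ n) * ((qmul F) ^ n) i j := by
  have h : H276.ev0 X (((H276.TT hF h1) ^ n) i j) =
      (((H276.TT hF h1) ^ n).map (H276.ev0 X)) i j := rfl
  rw [h, Matrix.map_pow, H276.ev0_TT, smul_pow, Matrix.smul_apply, smul_eq_mul, map_pow]

/-- the supertrace at the origin has no primitive part -/
theorem ev0_strO_pow (hi : 2 ≤ index X) (n : ℕ) (hn : n ≠ 0) :
    H276.ev0 X (strO hF h1 (CC hF h1 (Eu hF h1 ^ n))) =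
      PowerSeries.C ((index X : ℂ) ^ n) * Matrix.trace ((qmul F) ^ n) := by
  change H276.ev0 X (LinearMap.trace (RR X) (AA hF h1)
    (Algebra.lmul (RR X) (AA hF h1) (Eu hF h1 ^ n)) +
      cst X ((-1) ^ X.dim) * ∑ v, lam hF h1 (Eu hF h1 ^ n) v) = _
  rw [map_add, map_mul, map_sum, Finset.sum_eq_zero (s := Finset.univ)
    (f := fun v : X.Prim => H276.ev0 X (lam hF h1 (Eu hF h1 ^ n) v)), mul_zero, add_zero,
    H819.trace_eq, map_sum, Matrix.trace, Finset.mul_sum]
  · refine Finset.sum_congr rfl fun i _ => ?_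
    rw [Matrix.diag_apply, ← ev0_TT_pow hF h1]
    congr 1
    exact pow_mul_bas hF h1 n i i
  · intro v _
    rw [map_pow, Pi.pow_apply, map_pow, lam_zero hF h1 hi v, zero_pow hn]

/-- **[A5]** -/
theorem str_pow (ν : ℕ) (hν : index X = ν) (h2 : 2 ≤ ν) (l : ℕ → ℂ) (hl : IsL F ν l) :
    PowerSeries.coeff 1 (H276.ev0 X (strO hF h1 (CC hF h1 (Eu hF h1 ^ ν)))) =
      (ν : ℂ) ^ (ν + 1) * ∑ n ∈ Finset.range (X.dim + 1), l n := by
  rw [ev0_strO_pow hF h1 (by rw [hν]; exact_mod_cast h2) ν (by omega), PowerSeries.coeff_C_mul,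
    trace_pow hF ν hν h2 l hl, hν]
  push_cast
  ring

end Vale.Agent.P269.LN.H660
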