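import Vale.Agent.P269.LN.H660.Trace
import Vale.Agent.P269.G1I.Oper

/-!
# [A3]: the genus-one part at the origin
-/

set_option autoImplicit false

namespace Vale.Agent.P269.LN.H660

open Vale.Agent.P269.CI
open Vale.Agent.P269.G1

variable {X : CompleteIntersection} {F : ℕ → ℕ → List (Ins X) → ℂ}

theorem F_one_zero (hF : IsGW X F) :
    F 1 0 [hpow X (H276.i1 X)] = - (deg X * chernCoeff X (X.dim - 1)) / 24 := by
  have h := hF.divisor 1 0 []
  rw [H276.hcls_eq] at h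
  rw [h]
  simp [lowerSum, emptyTerm]

theorem sum_low (ν : ℕ) (h2 : 2 ≤ ν) (l : ℕ → ℂ) (hs : ∀ n, n + 1 < ν → l n = 0) :
    ∑ t ∈ Finset.range ν, l t = l (ν - 1) := by
  obtain ⟨m, rfl⟩ : ∃ m, ν = m + 1 := ⟨ν - 1, by omega⟩
  rw [Finset.sum_range_succ, Finset.sum_eq_zero, zero_add, Nat.add_sub_cancel]
  intro t ht
  exact hs t (by have := Finset.mem_range.mp ht; omega)

variable (hF : IsGW X F) (h1 : IsGenusOne F)

/-- **[A3]** -/
theorem G_part (ν : ℕ) (hν : index X = ν) (h2 : 2 ≤ ν) (hr : ν + 1 ≤ X.dim) (l : ℕ → ℂ)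
    (hl : IsL F ν l) : PowerSeries.coeff 1 (H276.ev0 X (GG hF h1 (Eu hF h1 ^ (ν + 1)))) =
      (ν : ℂ) ^ (ν + 1) * (F 1 1 [hpow X ⟨ν + 1, by omega⟩] -
        deg X * chernCoeff X (X.dim - 1) / 24 * (l ν + l (ν - 1))) := by
  have e0 : H276.ev0 X (GG hF h1 (Eu hF h1 ^ (ν + 1))) =
      ∑ i : Fin (X.dim + 1), H276.ev0 X ((Eu hF h1 ^ (ν + 1) : AA hF h1) i) *
        PowerSeries.mk fun d => F 1 d [hpow X i] := by
    change H276.ev0 X (∑ i : Fin (X.dim + 1), (Eu hF h1 ^ (ν + 1) : AA hF h1) i *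
      ser (cor F 1 [hpow X i])) = _
    rw [map_sum]
    refine Finset.sum_congr rfl fun i _ => ?_
    rw [map_mul, H276.ev0_cor]
  have hX2 := X.two_le_dim
  rw [e0, map_sum]
  simp only [H276.ev0_pow, mul_assoc, PowerSeries.coeff_C_mul, coeff_one_mul',
    (coeff_pow hF ν hν h2 l hl (ν + 1) _ _).1, (coeff_pow hF ν hν h2 l hl (ν + 1) _ _).2,
    PowerSeries.coeff_mk, hν, Int.cast_natCast]
  rw [← Finset.mul_sum, Finset.sum_add_distrib]
  congr 1
  have a1 : ∑ i : Fin (X.dim + 1), (if (i : ℕ) = ((0 : Fin (X.dim + 1)) : ℕ) + (ν + 1) then (1 : ℂ)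
      else 0) * F 1 1 [hpow X i] = F 1 1 [hpow X ⟨ν + 1, by omega⟩] := by
    rw [Finset.sum_eq_single (⟨ν + 1, by omega⟩ : Fin (X.dim + 1))]
    · rw [if_pos (by simp), one_mul]
    · intro i _ hi
      rw [if_neg, zero_mul]
      intro h
      exact hi (Fin.ext (by simpa using h))
    · simp
  have a2 : ∑ i : Fin (X.dim + 1), (if (i : ℕ) + ν = ((0 : Fin (X.dim + 1)) : ℕ) + (ν + 1) then
      ∑ t ∈ Finset.range (ν + 1), l (((0 : Fin (X.dim + 1)) : ℕ) + t) else 0) *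
        F 1 0 [hpow X i] = - (deg X * chernCoeff X (X.dim - 1) / 24 * (l ν + l (ν - 1))) := by
    rw [Finset.sum_eq_single (H276.i1 X)]
    · rw [if_pos (by simp [H276.i1]; omega), F_one_zero hF]
      have : ∑ t ∈ Finset.range (ν + 1), l (((0 : Fin (X.dim + 1)) : ℕ) + t) =
          l (ν - 1) + l ν := by
        rw [← sum_low ν h2 l hl.small, ← Finset.sum_range_succ]
        exact Finset.sum_congr rfl fun t _ => by simp
      rw [this]
      ring
    · intro i _ hi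
      rw [if_neg, zero_mul]
      intro h
      refine hi (Fin.ext ?_)
      simp [H276.i1] at h ⊢
      omega
    · simp
  rw [a1, a2]
  ring

end Vale.Agent.P269.LN.H660
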