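import Mathlib

/-!
# Power series modulo `q ^ (D + 1)`
-/

set_option autoImplicit false

namespace Vale.Agent.P269.LN.Gr

/-- coefficients of power series in `q` modulo `q ^ (D + 1)` -/
abbrev KD (D : ℕ) : Type :=
  PowerSeries ℂ ⧸ (Ideal.span {(PowerSeries.X : PowerSeries ℂ) ^ (D + 1)} : Ideal (PowerSeries ℂ))

/-- the reduction -/
noncomputable abbrev pr (D : ℕ) : PowerSeries ℂ →+* KD D := Ideal.Quotient.mk _

theorem pr_eq_zero (D : ℕ) (f : PowerSeries ℂ) :
    pr D f = 0 ↔ ∀ d ≤ D, PowerSeries.coeff d f = 0 := by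
  rw [Ideal.Quotient.eq_zero_iff_mem, Ideal.mem_span_singleton, PowerSeries.X_pow_dvd_iff]
  exact ⟨fun h d hd => h d (by omega), fun h d hd => h d (by omega)⟩

theorem pderiv_map {σ R S : Type*} [CommRing R] [CommRing S] (π : R →+* S) (i : σ)
    (f : MvPowerSeries σ R) : MvPowerSeries.pderiv S i (MvPowerSeries.map π f) =
      MvPowerSeries.map π (MvPowerSeries.pderiv R i f) := by
  classical
  ext α
  rw [MvPowerSeries.coeff_pderiv, MvPowerSeries.coeff_map, MvPowerSeries.coeff_map,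
    MvPowerSeries.coeff_pderiv, map_mul, map_add, map_natCast, map_one]

theorem map_pr_eq_zero {σ : Type*} (D : ℕ) (f : MvPowerSeries σ (PowerSeries ℂ)) :
    MvPowerSeries.map (pr D) f = 0 ↔
      ∀ α, ∀ d ≤ D, PowerSeries.coeff d (MvPowerSeries.coeff α f) = 0 := by
  constructor
  · intro h α
    rw [← pr_eq_zero, ← MvPowerSeries.coeff_map, h, map_zero]
  · intro h
    ext α
    rw [MvPowerSeries.coeff_map, map_zero, pr_eq_zero]
    exact h α

end Vale.Agent.P269.LN.Gr
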