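import Vale.Agent.P269.LN.H660.VirOne
import Vale.Agent.P269.LN.H984.Ell

/-!
# [C]: the constraint in degree one
-/

set_option autoImplicit false

namespace Vale.Agent.P269.LN.H660

open Vale.Agent.P269.CI
open Vale.Agent.P269.G1

variable {X : CompleteIntersection} {F : ℕ → ℕ → List (Ins X) → ℂ}

theorem IsL_symm (hF : IsGW X F) (ν : ℕ) (l : ℕ → ℂ) (hl : IsL F ν l) (i j : Fin (X.dim + 1))
    (h : (i : ℕ) + j + 1 = X.dim + ν) : l i = l j := by
  have h1 := hl.val i j h
  have h2 := hl.val j i (by omega)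
  have h3 := hF.symm 0 1 [(hcls X, 0)] [] (hpow X i) (hpow X j)
  have h4 : sgn (par X (hpow X i).1) (par X (hpow X j).1) = 1 := by
    change sgn false false = 1
    simp [sgn]
  rw [h4, one_mul] at h3
  simp only [List.cons_append, List.nil_append] at h3
  rw [h3, h2] at h1
  exact (mul_left_cancel₀ (H276.deg_ne X) h1).symm

theorem list_sums (L : List ℕ) :
    6 * (L.map fun d : ℕ => ((d : ℂ) - 1 / d) / 6).sum =
      (L.map fun d : ℕ => ((d : ℂ) + 1) / 2 - 1 / d).sum + ((L.sum : ℂ) - L.length) / 2 := by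
  induction L with
  | nil => simp
  | cons d L ih =>
    simp only [List.map_cons, List.sum_cons, List.length_cons]
    rw [mul_add, ih]
    push_cast
    ring


/-- **[C]** from `number` -/
theorem vir_line_of (hF : IsGW X F) (h1 : IsGenusOne F) (hL : IsLine F) (ν : ℕ)
    (hν : index X = ν) (h2 : 2 ≤ ν) (hr : ν + 1 ≤ X.dim)
    (hnum : 24 * F 1 1 [hpow X ⟨ν + 1, by omega⟩] =
      deg X * (chernCoeff X (X.dim - 1) * (ell X ν (X.dim - 1) + ell X ν X.dim) +
        chernCoeff X X.dim * ell X ν X.dim) -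
      (X.degs.map fun d : ℕ => (d : ℂ) ^ d).prod * ((ν : ℂ) + 1) *
        ((ν : ℂ) / 2 + (X.degs.map fun d : ℕ => ((d : ℂ) + 1) / 2 - 1 / d).sum)) :
    virasoro X F (ν + 1) 1 1 [] = 0 := by
  have hl := H984.isL_ell hL ν hν h2
  have hA := vir_deg_one hF h1 ν hν h2 hr (ell X ν) hl
  have s1 : ell X ν ν = ell X ν (X.dim - 1) :=
    IsL_symm hF ν _ hl ⟨ν, by omega⟩ ⟨X.dim - 1, by omega⟩ (by simp only []; omega)
  have s2 : ell X ν (ν - 1) = ell X ν X.dim :=
    IsL_symm hF ν _ hl ⟨ν - 1, by omega⟩ ⟨X.dim, by omega⟩ (by simp only []; omega)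
  have hs : (X.degs.sum : ℂ) - X.degs.length = X.dim + 1 - ν := by
    have h : (X.dim : ℤ) + X.degs.length + 1 - X.degs.sum = ν := hν
    have h' : ((X.dim : ℤ) : ℂ) + ((X.degs.length : ℤ) : ℂ) + 1 - ((X.degs.sum : ℤ) : ℂ) =
        ((ν : ℤ) : ℂ) := by
      rw [← h, Int.cast_sub, Int.cast_add, Int.cast_add, Int.cast_one]
    simp only [Int.cast_natCast] at h'
    linear_combination -h'
  have hq := list_sums X.degs
  rw [hs] at hq
  rw [hnum, H984.moment_ell ν hν h2, H984.sum_ell ν hν h2, s1, s2] at hA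
  have h24 : (24 : ℂ) * virasoro X F (ν + 1) 1 1 [] = 0 := by
    rw [hA]
    linear_combination (-(ν : ℂ) ^ (ν + 1) * ((ν : ℂ) + 1) *
      (X.degs.map fun d : ℕ => (d : ℂ) ^ d).prod) * hq
  rcases mul_eq_zero.mp h24 with h | h
  · norm_num at h
  · exact h

end Vale.Agent.P269.LN.H660
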