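import Vale.Agent.P269.LN.H660.StrPow
import Vale.Agent.P269.LN.H660.GPart
import Vale.Agent.P269.G1I.H246.One

/-!
# [A6]: `E^{ν-b} d(E^b)` at the origin
-/

set_option autoImplicit false

namespace Vale.Agent.P269.LN.H660

open Vale.Agent.P269.CI
open Vale.Agent.P269.G1

variable {X : CompleteIntersection} {F : ℕ → ℕ → List (Ins X) → ℂ}

variable (hF : IsGW X F) (h1 : IsGenusOne F)

/-- a linear function in coordinates -/
theorem lin_coord (φ : AA hF h1 →ₗ[RR X] RR X) (z : AA hF h1) :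
    φ z = ∑ k, z k * φ (QA.bas (consts hF h1) k) := by
  have h : ∑ k, z k • (QA.bas (consts hF h1) k : AA hF h1) = z :=
    (QA.bas (consts hF h1)).sum_repr z
  conv_lhs => rw [← h]
  rw [map_sum]
  exact Finset.sum_congr rfl fun k _ => by rw [map_smul, smul_eq_mul]

/-- **[A6]** -/
theorem str_d (ν : ℕ) (hν : index X = ν) (h2 : 2 ≤ ν) (_hr : ν + 1 ≤ X.dim) (l : ℕ → ℂ)
    (hl : IsL F ν l) (b : ℕ) (hb : b ≤ ν) :
    PowerSeries.coeff 1 (H276.ev0 X (strO hF h1 (CC hF h1
      (Eu hF h1 ^ (ν - b) * dd hF h1 (Eu hF h1 ^ b))))) =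
      (b : ℂ) * ((ν : ℂ) ^ (ν + 1) * ∑ n ∈ Finset.range (X.dim + 1), l n) -
        (if b = ν then (ν : ℂ) ^ (ν + 1) * l (ν - 1) * (deg X * chernCoeff X X.dim) else 0) := by
  set φ : AA hF h1 →ₗ[RR X] RR X := (strO hF h1).comp ((CC hF h1).toLinearMap.comp
    (LinearMap.mulLeft (RR X) (Eu hF h1 ^ (ν - b)))) with hφ
  have hφa : ∀ z : AA hF h1, φ z = strO hF h1 (CC hF h1 (Eu hF h1 ^ (ν - b) * z)) := fun z => rfl
  have e1 : strO hF h1 (CC hF h1 (Eu hF h1 ^ (ν - b) * dd hF h1 (Eu hF h1 ^ b))) =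
      φ (dd hF h1 (Eu hF h1 ^ b)) := rfl
  have e2 : φ (Eu hF h1 ^ b) = strO hF h1 (CC hF h1 (Eu hF h1 ^ ν)) := by
    rw [hφa, ← pow_add, Nat.sub_add_cancel hb]
  have e3 := str_pow hF h1 ν hν h2 l hl
  rw [← e2, lin_coord, map_sum, map_sum] at e3
  rw [e1, lin_coord, map_sum, map_sum]
  have hE0 : ∀ k : Fin (X.dim + 1), PowerSeries.coeff 0 (H276.ev0 X
      ((Eu hF h1 ^ b : AA hF h1) k)) = if (k : ℕ) = b then (ν : ℂ) ^ b else 0 := by
    intro k
    rw [H276.ev0_pow, PowerSeries.coeff_C_mul, (coeff_pow hF ν hν h2 l hl b _ _).1, hν,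
      Fin.val_zero, zero_add]
    split_ifs <;> simp
  have hE1 : ∀ k : Fin (X.dim + 1), PowerSeries.coeff 1 (H276.ev0 X
      ((Eu hF h1 ^ b : AA hF h1) k)) =
        if (k : ℕ) + ν = b then (ν : ℂ) ^ b * ∑ t ∈ Finset.range b, l t else 0 := by
    intro k
    rw [H276.ev0_pow, PowerSeries.coeff_C_mul, (coeff_pow hF ν hν h2 l hl b _ _).2, hν,
      Fin.val_zero]
    simp only [zero_add, Int.cast_natCast]
    split_ifs <;> simp
  rw [← e3, Finset.mul_sum, eq_sub_iff_add_eq]
  have hterm : ∀ k : Fin (X.dim + 1), PowerSeries.coeff 1 (H276.ev0 X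
      ((dd hF h1 (Eu hF h1 ^ b) : AA hF h1) k * φ (QA.bas (consts hF h1) k))) =
      (b : ℂ) * PowerSeries.coeff 1 (H276.ev0 X ((Eu hF h1 ^ b : AA hF h1) k *
        φ (QA.bas (consts hF h1) k))) -
      (if (k : ℕ) + ν = b then (ν : ℂ) * ((ν : ℂ) ^ ν * ∑ t ∈ Finset.range b, l t) *
        PowerSeries.coeff 0 (H276.ev0 X (φ (QA.bas (consts hF h1) k))) else 0) := by
    intro k
    have hdd : (dd hF h1 (Eu hF h1 ^ b) : AA hF h1) k =
        ((k : ℕ) : RR X) * (Eu hF h1 ^ b : AA hF h1) k := rfl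
    have hnat : H276.ev0 X (((k : ℕ) : RR X)) = PowerSeries.C (((k : ℕ) : ℂ)) := by
      rw [map_natCast, map_natCast]
    have hsplit : H276.ev0 X (((k : ℕ) : RR X) * (Eu hF h1 ^ b : AA hF h1) k *
        φ (QA.bas (consts hF h1) k)) = PowerSeries.C (((k : ℕ) : ℂ)) *
        (H276.ev0 X ((Eu hF h1 ^ b : AA hF h1) k) *
          H276.ev0 X (φ (QA.bas (consts hF h1) k))) := by
      rw [(H276.ev0 X).map_mul, (H276.ev0 X).map_mul, hnat, mul_assoc]
    rw [hdd, hsplit, (H276.ev0 X).map_mul, PowerSeries.coeff_C_mul,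
      coeff_one_mul', hE0, hE1]
    by_cases h3 : (k : ℕ) = b
    · rw [if_pos h3, if_neg (by omega), if_neg (by omega), h3]
      ring
    · rw [if_neg h3]
      by_cases h4 : (k : ℕ) + ν = b
      · have hk0 : (k : ℕ) = 0 := by omega
        have hbν : b = ν := by omega
        rw [if_pos h4, if_pos h4, hk0, hbν]
        push_cast
        ring
      · rw [if_neg h4, if_neg h4]
        ring
  rw [Finset.sum_congr rfl fun k _ => hterm k, Finset.sum_sub_distrib]
  have hlast : ∑ k : Fin (X.dim + 1), (if (k : ℕ) + ν = b then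
      (ν : ℂ) * ((ν : ℂ) ^ ν * ∑ t ∈ Finset.range b, l t) *
        PowerSeries.coeff 0 (H276.ev0 X (φ (QA.bas (consts hF h1) k))) else 0) =
      if b = ν then (ν : ℂ) ^ (ν + 1) * l (ν - 1) * (deg X * chernCoeff X X.dim) else 0 := by
    by_cases hbν : b = ν
    · rw [if_pos hbν, Finset.sum_eq_single (0 : Fin (X.dim + 1))]
      · rw [if_pos (by rw [Fin.val_zero]; omega), hφa]
        have h0 : (Eu hF h1 ^ (ν - b) * (QA.bas (consts hF h1) 0 : AA hF h1) : AA hF h1) = 1 := by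
          rw [hbν, Nat.sub_self, pow_zero, one_mul]
          funext k
          rw [QA.bas_apply]
          change (if k = 0 then (1 : RR X) else 0) = if k = 0 then 1 else 0
          rfl
        rw [h0, map_one, H246.strO_one, H861.euler]
        have h5 : PowerSeries.coeff 0 (H276.ev0 X (cst X (deg X * chernCoeff X X.dim))) =
            deg X * chernCoeff X X.dim := by
          unfold cst
          rw [MvPowerSeries.constantCoeff_C, PowerSeries.coeff_zero_C]
        rw [h5, hbν, sum_low ν h2 l hl.small]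
        ring
      · intro k _ hk
        refine if_neg fun h => hk (Fin.ext ?_)
        rw [Fin.val_zero]
        omega
      · simp
    · rw [if_neg hbν]
      refine Finset.sum_eq_zero fun k _ => if_neg ?_
      omega
  rw [hlast, sub_add_cancel]

end Vale.Agent.P269.LN.H660
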