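import Vale.Agent.P269.LN.Base

/-!
# [A1], [A2]: powers of the matrix of `h` at the origin, modulo `q ^ 2`
-/

set_option autoImplicit false

namespace Vale.Agent.P269.LN.H660

open Vale.Agent.P269.CI
open Vale.Agent.P269.G1

variable {X : CompleteIntersection} {F : ℕ → ℕ → List (Ins X) → ℂ}

theorem coeff_one_mul' (f g : PowerSeries ℂ) : PowerSeries.coeff 1 (f * g) =
    PowerSeries.coeff 0 f * PowerSeries.coeff 1 g +
      PowerSeries.coeff 1 f * PowerSeries.coeff 0 g := by
  rw [PowerSeries.coeff_mul, Finset.Nat.antidiagonal_succ, Finset.sum_cons]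
  simp

theorem coeff_zero_mul' (f g : PowerSeries ℂ) : PowerSeries.coeff 0 (f * g) =
    PowerSeries.coeff 0 f * PowerSeries.coeff 0 g := by
  simp [PowerSeries.coeff_zero_eq_constantCoeff]

theorem coeff0_qmul (hF : IsGW X F) (i j : Fin (X.dim + 1)) :
    PowerSeries.coeff 0 (qmul F i j) = if (j : ℕ) = i + 1 then 1 else 0 := by
  have h := congrArg (fun M => M i j) (H276.cc_qmul (X := X) (F := F) hF)
  rw [PowerSeries.coeff_zero_eq_constantCoeff]
  exact h

theorem coeff1_qmul (hF : IsGW X F) (ν : ℕ) (hν : index X = ν) (l : ℕ → ℂ)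
    (hl : IsL F ν l) (i j : Fin (X.dim + 1)) :
    PowerSeries.coeff 1 (qmul F i j) = if (j : ℕ) + ν = i + 1 then l i else 0 := by
  have hd := H276.deg_ne X
  have hj := j.isLt
  have hi := i.isLt
  unfold qmul
  rw [Matrix.of_apply, map_sum,
    Finset.sum_eq_single (⟨X.dim - j, by omega⟩ : Fin (X.dim + 1))]
  · rw [PowerSeries.coeff_mul_C, PowerSeries.coeff_mk, H276.pInv_inl,
      if_pos (show X.dim - (j : ℕ) + j = X.dim by omega)]
    by_cases h : (j : ℕ) + ν = i + 1
    · rw [if_pos h, hl.val i ⟨X.dim - j, by omega⟩ (by simp only []; omega)]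
      field_simp
    · rw [if_neg h]
      by_contra hc
      have hc' : F 0 1 [(hcls X, 0), hpow X i, hpow X ⟨X.dim - j, by omega⟩] ≠ 0 := by
        intro h0
        rw [h0, zero_mul] at hc
        exact hc rfl
      have hg := hF.grading_p 0 1 _ hc'
      simp only [List.map_cons, List.map_nil, List.sum_cons, List.sum_nil, hp, hcls, hpow,
        hν] at hg
      push_cast at hg
      omega
  · intro k _ hk
    have h2 : ¬ ((k : ℕ) + j = X.dim) := fun h =>
      hk (Fin.ext (show (k : ℕ) = X.dim - (j : ℕ) by omega))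
    rw [H276.pInv_inl, if_neg h2, map_zero, mul_zero, map_zero]
  · simp

/-- **[A1]** -/
theorem coeff_pow (hF : IsGW X F) (ν : ℕ) (hν : index X = ν) (h2 : 2 ≤ ν) (l : ℕ → ℂ)
    (hl : IsL F ν l) (b : ℕ) (i j : Fin (X.dim + 1)) :
    PowerSeries.coeff 0 (((qmul F) ^ b) i j) = (if (j : ℕ) = i + b then 1 else 0) ∧
    PowerSeries.coeff 1 (((qmul F) ^ b) i j) =
      (if (j : ℕ) + ν = i + b then ∑ t ∈ Finset.range b, l (i + t) else 0) := by
  induction b generalizing i j with
  | zero =>
    rw [pow_zero, Matrix.one_apply]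
    constructor
    · by_cases h : i = j
      · subst h; simp
      · rw [if_neg h, if_neg (fun h' => h (Fin.ext (by omega))), map_zero]
    · by_cases h : i = j
      · subst h; simp [PowerSeries.coeff_one]
      · rw [if_neg h, map_zero]; simp
  | succ b ih =>
    have hj := j.isLt
    have hi := i.isLt
    rw [pow_succ', Matrix.mul_apply]
    constructor
    · rw [map_sum]
      simp only [coeff_zero_mul', coeff0_qmul hF, (ih _ _).1]
      by_cases h : (i : ℕ) + 1 < X.dim + 1
      · rw [Finset.sum_eq_single (⟨i + 1, h⟩ : Fin (X.dim + 1))]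
        · simp only [if_true, one_mul]
          refine if_congr ?_ rfl rfl
          omega
        · intro k _ hk
          rw [if_neg (fun h' => hk (Fin.ext h')), zero_mul]
        · simp
      · rw [if_neg (by omega)]
        refine Finset.sum_eq_zero fun k _ => ?_
        have hk := k.isLt
        rw [if_neg (by omega), zero_mul]
    · rw [map_sum]
      simp only [coeff_one_mul', coeff0_qmul hF, coeff1_qmul hF ν hν l hl, (ih _ _).1, (ih _ _).2]
      rw [Finset.sum_add_distrib, Finset.sum_range_succ']
      have e1 : ∑ k : Fin (X.dim + 1), (if (k : ℕ) = i + 1 then (1 : ℂ) else 0) *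
          (if (j : ℕ) + ν = k + b then ∑ t ∈ Finset.range b, l (k + t) else 0) =
          if (j : ℕ) + ν = i + (b + 1) then ∑ t ∈ Finset.range b, l (i + (t + 1)) else 0 := by
        by_cases h : (i : ℕ) + 1 < X.dim + 1
        · rw [Finset.sum_eq_single (⟨i + 1, h⟩ : Fin (X.dim + 1))]
          · simp only [if_true, one_mul]
            refine if_congr ?_ (Finset.sum_congr rfl fun t _ => ?_) rfl
            · omega
            · congr 1; omega
          · intro k _ hk
            rw [if_neg (fun h' => hk (Fin.ext h')), zero_mul]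
          · simp
        · rw [Finset.sum_eq_zero]
          · symm
            split_ifs
            · refine Finset.sum_eq_zero fun t _ => hl.big _ (by omega)
            · rfl
          · intro k _
            have hk := k.isLt
            rw [if_neg (by omega), zero_mul]
      have e2 : ∑ k : Fin (X.dim + 1), (if (k : ℕ) + ν = i + 1 then l i else 0) *
          (if (j : ℕ) = k + b then (1 : ℂ) else 0) =
          if (j : ℕ) + ν = i + (b + 1) then l i else 0 := by
        by_cases h : ν ≤ (i : ℕ) + 1
        · rw [Finset.sum_eq_single (⟨i + 1 - ν, by omega⟩ : Fin (X.dim + 1))]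
          · simp only []
            rw [if_pos (by omega)]
            by_cases h3 : (j : ℕ) + ν = i + (b + 1)
            · rw [if_pos h3, if_pos (by omega), mul_one]
            · rw [if_neg h3, if_neg (by omega), mul_zero]
          · intro k _ hk
            rw [if_neg, zero_mul]
            intro h'
            exact hk (Fin.ext (show (k : ℕ) = i + 1 - ν by omega))
          · simp
        · rw [hl.small i (by omega)]
          simp
      rw [e1, e2]
      by_cases h : (j : ℕ) + ν = i + (b + 1)
      · rw [if_pos h, if_pos h, if_pos h, add_zero]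
      · rw [if_neg h, if_neg h, if_neg h, add_zero]

/-- shift of a sum of a function supported on `[ν - 1, dim]` -/
theorem sum_shift (D ν : ℕ) (g : ℕ → ℂ) (hb : ∀ n, D < n → g n = 0)
    (hs : ∀ n, n + 1 < ν → g n = 0) (s : ℕ) (hsν : s + 1 ≤ ν) :
    ∑ i ∈ Finset.range (D + 1), g (i + s) = ∑ n ∈ Finset.range (D + 1), g n := by
  have h1 := Finset.sum_range_add g s (D + 1)
  have h2 := Finset.sum_range_add g (D + 1) s
  have h3 : ∑ x ∈ Finset.range s, g x = 0 :=
    Finset.sum_eq_zero fun x hx => hs x (by have := Finset.mem_range.mp hx; omega)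
  have h4 : ∑ x ∈ Finset.range s, g (D + 1 + x) = 0 :=
    Finset.sum_eq_zero fun x _ => hb _ (by omega)
  rw [h3, zero_add] at h1
  rw [h4, add_zero, add_comm (D + 1) s, h1] at h2
  rw [← h2]
  exact Finset.sum_congr rfl fun i _ => by rw [add_comm]

/-- **[A2a]** -/
theorem trace_pow (hF : IsGW X F) (ν : ℕ) (hν : index X = ν) (h2 : 2 ≤ ν) (l : ℕ → ℂ)
    (hl : IsL F ν l) : PowerSeries.coeff 1 (Matrix.trace ((qmul F) ^ ν)) =
      ν * ∑ n ∈ Finset.range (X.dim + 1), l n := by
  unfold Matrix.trace
  rw [map_sum]
  simp only [Matrix.diag_apply, (coeff_pow hF ν hν h2 l hl ν _ _).2, if_true]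
  rw [Finset.sum_comm, Finset.sum_congr rfl (g := fun _ => ∑ n ∈ Finset.range (X.dim + 1), l n)]
  · rw [Finset.sum_const, Finset.card_range, nsmul_eq_mul]
  · intro t ht
    have ht' := Finset.mem_range.mp ht
    rw [Fin.sum_univ_eq_sum_range (fun i => l (i + t)) (X.dim + 1)]
    exact sum_shift X.dim ν l hl.big hl.small t (by omega)

end Vale.Agent.P269.LN.H660
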