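import Vale.Agent.P269.LN.H660.LineH
import Vale.Agent.P269.LN.H984.Number
import Vale.Agent.P269.LN.H825.ChernOne

/-!
# The Virasoro constraint in genus one and degree one, without insertions
-/

set_option autoImplicit false

namespace Vale.Agent.P269.LN

open Vale.Agent.P269.CI
open Vale.Agent.P269.G1

variable {X : CompleteIntersection} {F : ℕ → ℕ → List (Ins X) → ℂ}

/-- **[C]** -/
theorem vir_line (hF : IsGW X F) (h1 : IsGenusOne F) (hL : IsLine F) (hi : 2 ≤ index X)
    (hr : index X + 1 ≤ X.dim) (k : ℕ) (hk : index X = k) :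
    virasoro X F (k + 1) 1 1 [] = 0 := by
  have h2 : 2 ≤ k := by rw [hk] at hi; exact_mod_cast hi
  have hr' : k + 1 ≤ X.dim := by rw [hk] at hr; exact_mod_cast hr
  exact H660.vir_line_of hF h1 hL k hk h2 hr'
    (H984.number_of hF hL k hk h2 hr' (H825.chern_one k hk h2))

end Vale.Agent.P269.LN
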