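import Vale.Agent.P269.LN.H660.VirOneH
import Vale.Agent.P269.LN.H597.StrMu

/-!
# [A]
-/

set_option autoImplicit false

namespace Vale.Agent.P269.LN.H660

open Vale.Agent.P269.CI
open Vale.Agent.P269.G1

variable {X : CompleteIntersection} {F : ℕ → ℕ → List (Ins X) → ℂ}

variable (hF : IsGW X F) (h1 : IsGenusOne F)

include hF h1 in
/-- **[A]** -/
theorem vir_deg_one (ν : ℕ) (hν : index X = ν) (h2 : 2 ≤ ν) (hr : ν + 1 ≤ X.dim)
    (l : ℕ → ℂ) (hl : IsL F ν l) :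
    24 * virasoro X F (ν + 1) 1 1 [] = - (ν : ℂ) ^ (ν + 1) *
      (24 * F 1 1 [hpow X ⟨ν + 1, by omega⟩]
        - deg X * chernCoeff X (X.dim - 1) * (l ν + l (ν - 1))
        - l (ν - 1) * (deg X * chernCoeff X X.dim)
        + (ν + 1) * (6 * ∑ n ∈ Finset.range (X.dim + 1),
              l n * ((n : ℂ) - (X.dim + ν - 1) / 2) ^ 2
            + (2 * ν - 1 - X.dim) / 2 * ∑ n ∈ Finset.range (X.dim + 1), l n)) :=
  vir_deg_one_of hF h1 ν hν h2 hr l hl (H597.str_mu hF h1 ν hν h2 l hl)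

end Vale.Agent.P269.LN.H660
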