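import Vale.Agent.P269.LN.H660.StrD
import Vale.Agent.P269.G1I.T.H598_VirSmall

/-!
# [A]: the Virasoro coefficient of degree one
-/

set_option autoImplicit false

namespace Vale.Agent.P269.LN.H660

open Finset.HasAntidiagonal (antidiagonal)
open Vale.Agent.P269.CI
open Vale.Agent.P269.G1

variable {X : CompleteIntersection} {F : ℕ → ℕ → List (Ins X) → ℂ}

variable (hF : IsGW X F) (h1 : IsGenusOne F)

theorem om_eq_sum {R A O : Type*} [CommRing R] [Algebra ℚ R] [CommRing A] [Algebra R A]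
    [Ring O] [Algebra R O] (S : Frob R A O) (ν : ℕ) :
    S.om (ν + 1) = ∑ b ∈ Finset.range (ν + 1),
      (-((1 / 4 : ℚ) • S.str (S.mu * S.C (S.E ^ (ν - b)) * S.mu * S.C (S.E ^ b)))
        - (1 / 24 : ℚ) • (S.str (S.C (S.E ^ (ν - b) * S.d (S.E ^ b)))
          - S.rho • S.str (S.C (S.E ^ (ν - b) * S.E ^ b)))) := by
  unfold Frob.om
  rw [Finset.Nat.sum_antidiagonal_eq_sum_range_succ (fun a b => if a = 0 then (0 : R) else
    -((1 / 4 : ℚ) • S.str (S.mu * S.C (S.E ^ (a - 1)) * S.mu * S.C (S.E ^ b)))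
    - (1 / 24 : ℚ) • (S.str (S.C (S.E ^ (a - 1) * S.d (S.E ^ b)))
        - S.rho • S.str (S.C (S.E ^ (a - 1) * S.E ^ b)))) (ν + 1),
    Finset.sum_range_succ', if_pos rfl, add_zero, ← Finset.sum_flip]
  refine Finset.sum_congr rfl fun b hb => ?_
  have hb' := Finset.mem_range.mp hb
  rw [if_neg (Nat.succ_ne_zero _), Nat.add_sub_cancel,
    show ν + 1 - (ν - b + 1) = b by omega]

theorem coeff_rat_smul (q : ℚ) (f : RR X) : PowerSeries.coeff 1 (H276.ev0 X (q • f)) =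
    (q : ℂ) * PowerSeries.coeff 1 (H276.ev0 X f) := by
  have h := map_rat_smul ((PowerSeries.coeff (R := ℂ) 1).toAddMonoidHom.comp
    (H276.ev0 X).toAddMonoidHom) q f
  rw [Rat.smul_def] at h
  exact h

include h1 in
/-- **[A]** from the quadratic part -/
theorem vir_deg_one_of (ν : ℕ) (hν : index X = ν) (h2 : 2 ≤ ν) (hr : ν + 1 ≤ X.dim)
    (l : ℕ → ℂ) (hl : IsL F ν l)
    (hmu : ∑ b ∈ Finset.range (ν + 1), PowerSeries.coeff 1 (H276.ev0 X (strO hF h1
      (muO hF h1 * CC hF h1 (Eu hF h1 ^ (ν - b)) * muO hF h1 * CC hF h1 (Eu hF h1 ^ b)))) =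
      (ν : ℂ) ^ ν * ∑ n ∈ Finset.range (X.dim + 1), l n *
        ((ν : ℂ) * (ν + 1) * ((n : ℂ) - (X.dim + ν - 1) / 2) ^ 2 +
          (ν : ℂ) * ((ν : ℂ) ^ 2 - 1) / 12)) :
    24 * virasoro X F (ν + 1) 1 1 [] = - (ν : ℂ) ^ (ν + 1) *
      (24 * F 1 1 [hpow X ⟨ν + 1, by omega⟩]
        - deg X * chernCoeff X (X.dim - 1) * (l ν + l (ν - 1))
        - l (ν - 1) * (deg X * chernCoeff X X.dim)
        + (ν + 1) * (6 * ∑ n ∈ Finset.range (X.dim + 1),
              l n * ((n : ℂ) - (X.dim + ν - 1) / 2) ^ 2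
            + (2 * ν - 1 - X.dim) / 2 * ∑ n ∈ Finset.range (X.dim + 1), l n)) := by
  have hv : virasoro X F (ν + 1) 1 1 [] =
      - PowerSeries.coeff 1 (H276.ev0 X ((frob hF h1).de (ν + 1))) := by
    have h := congrArg (H276.ev0 X) (vir_small hF h1 ν)
    rw [H276.ev0_ser, map_neg] at h
    have h' := congrArg (PowerSeries.coeff 1) h
    rw [PowerSeries.coeff_mk, map_neg] at h'
    exact h'
  have hde : PowerSeries.coeff 1 (H276.ev0 X ((frob hF h1).de (ν + 1))) =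
      PowerSeries.coeff 1 (H276.ev0 X (GG hF h1 (Eu hF h1 ^ (ν + 1)))) -
      PowerSeries.coeff 1 (H276.ev0 X ((frob hF h1).om (ν + 1))) := by
    unfold Frob.de
    rw [map_sub, map_sub]
    rfl
  have hom : PowerSeries.coeff 1 (H276.ev0 X ((frob hF h1).om (ν + 1))) =
      ∑ b ∈ Finset.range (ν + 1),
        (-((1 / 4 : ℂ) * PowerSeries.coeff 1 (H276.ev0 X (strO hF h1 (muO hF h1 *
            CC hF h1 (Eu hF h1 ^ (ν - b)) * muO hF h1 * CC hF h1 (Eu hF h1 ^ b)))))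
          - (1 / 24 : ℂ) * (PowerSeries.coeff 1 (H276.ev0 X (strO hF h1 (CC hF h1
              (Eu hF h1 ^ (ν - b) * dd hF h1 (Eu hF h1 ^ b))))) -
            (X.dim : ℂ) / 2 * PowerSeries.coeff 1 (H276.ev0 X
              (strO hF h1 (CC hF h1 (Eu hF h1 ^ ν)))))) := by
    rw [om_eq_sum, map_sum, map_sum]
    refine Finset.sum_congr rfl fun b hb => ?_
    have hb' := Finset.mem_range.mp hb
    rw [map_sub, map_sub, map_neg, map_neg, coeff_rat_smul, coeff_rat_smul, map_sub, map_sub,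
      coeff_rat_smul, ← pow_add, Nat.sub_add_cancel (by omega)]
    change -((((1 / 4 : ℚ)) : ℂ) * _) - (((1 / 24 : ℚ)) : ℂ) * (_ - (((X.dim : ℚ) / 2 : ℚ) : ℂ) * _)
      = _
    push_cast
    rfl
  have hgauss : ∑ b ∈ Finset.range (ν + 1), (b : ℂ) = (ν : ℂ) * (ν + 1) / 2 := by
    clear hv hde hom hmu hr h2 hν hl
    induction ν with
    | zero => simp
    | succ n ih => rw [Finset.sum_range_succ, ih]; push_cast; ring
  have hdsum : ∑ b ∈ Finset.range (ν + 1), PowerSeries.coeff 1 (H276.ev0 X (strO hF h1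
      (CC hF h1 (Eu hF h1 ^ (ν - b) * dd hF h1 (Eu hF h1 ^ b))))) =
      (ν : ℂ) * (ν + 1) / 2 * ((ν : ℂ) ^ (ν + 1) * ∑ n ∈ Finset.range (X.dim + 1), l n) -
        (ν : ℂ) ^ (ν + 1) * l (ν - 1) * (deg X * chernCoeff X X.dim) := by
    rw [Finset.sum_congr rfl fun b hb => str_d hF h1 ν hν h2 hr l hl b
      (by have := Finset.mem_range.mp hb; omega), Finset.sum_sub_distrib, ← Finset.sum_mul,
      hgauss, Finset.sum_ite_eq' (Finset.range (ν + 1)) ν, if_pos (Finset.self_mem_range_succ ν)]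
  have hmu' : ∑ n ∈ Finset.range (X.dim + 1), l n *
        ((ν : ℂ) * (ν + 1) * ((n : ℂ) - (X.dim + ν - 1) / 2) ^ 2 +
          (ν : ℂ) * ((ν : ℂ) ^ 2 - 1) / 12) =
      (ν : ℂ) * (ν + 1) * ∑ n ∈ Finset.range (X.dim + 1),
        l n * ((n : ℂ) - (X.dim + ν - 1) / 2) ^ 2 +
      (ν : ℂ) * ((ν : ℂ) ^ 2 - 1) / 12 * ∑ n ∈ Finset.range (X.dim + 1), l n := by
    rw [Finset.mul_sum, Finset.mul_sum, ← Finset.sum_add_distrib]
    exact Finset.sum_congr rfl fun n _ => by ring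
  rw [hv, hde, G_part hF h1 ν hν h2 hr l hl, hom, Finset.sum_sub_distrib,
    Finset.sum_neg_distrib, ← Finset.mul_sum, ← Finset.mul_sum, Finset.sum_sub_distrib, hmu, hmu',
    hdsum, Finset.sum_const, Finset.card_range, nsmul_eq_mul, str_pow hF h1 ν hν h2 l hl]
  push_cast
  ring

end Vale.Agent.P269.LN.H660
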